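import Vale.Agent.P092.H790.TgtUltra
import Vale.Agent.P092.UN.St
import Mathlib.RingTheory.Norm.Transitivity
import Mathlib.RingTheory.Complex

/-!
P092 (helper96): a coarse Cartan decomposition gives a target group, over every local field.
-/

set_option linter.all false

open Finset Module Matrix Topology

namespace Vale.Agent.P092TG

open P092 P092.H515 P092.H944 P092.H790.Mrg

variable {n r : ℕ} {G : Type} [Group G] [TopologicalSpace G]

theorem sqrt_hs_le {s : Matrix (Fin n) (Fin n) ℝ} {C : ℝ} (hC : 0 ≤ C) (h : ∀ i j, |s i j| ≤ C) :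
    Real.sqrt (hs s) ≤ n * C := Real.sqrt_le_iff.2 ⟨by positivity, by
  calc hs s ≤ ∑ _i : Fin n, ∑ _j : Fin n, C ^ 2 :=
        sum_le_sum fun i _ => sum_le_sum fun j _ => sq_le_sq' (abs_le.1 (h i j)).1 (abs_le.1 (h i j)).2
    _ = _ := by simp; ring⟩

theorem la_le {s g g' : Matrix (Fin n) (Fin n) ℝ} {C : ℝ} (hC : 1 ≤ C) (h : ∀ i j, |s i j| ≤ C)
    (hg : g.det ≠ 0) (hg' : g'.det ≠ 0) (i : Fin n)
    (e : sv g' i ≤ n * Real.sqrt (hs s) * sv g i) : la g' i ≤ la g i + Real.log (n * (n * C)) := by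
  have p1 := (isSVD hg).pos i
  have p2 := (isSVD hg').pos i
  have hn : (0 : ℝ) < n := by exact_mod_cast i.pos
  rw [la_fin, la_fin, add_comm, ← Real.log_mul (by positivity) p1.ne']
  refine Real.log_le_log p2 (e.trans ?_)
  gcongr
  exact sqrt_hs_le (by linarith) h

theorem la_bd {A A' B B' D : Matrix (Fin n) (Fin n) ℝ} {C : ℝ} (hC : 1 ≤ C) (hA : A * A' = 1)
    (hB : B * B' = 1) (h1 : ∀ i j, |A i j| ≤ C) (h2 : ∀ i j, |A' i j| ≤ C) (h3 : ∀ i j, |B i j| ≤ C)
    (h4 : ∀ i j, |B' i j| ≤ C) (hD : D.det ≠ 0) (i : Fin n) :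
    |la (A * D * B) i - la D i| ≤ 2 * Real.log (n * (n * C)) := by
  have a := congrArg det hA
  have b := congrArg det hB
  rw [det_mul, det_one] at a b
  have dA := left_ne_zero_of_mul_eq_one a
  have dA' := right_ne_zero_of_mul_eq_one a
  have dB := left_ne_zero_of_mul_eq_one b
  have dB' := right_ne_zero_of_mul_eq_one b
  have d1 := mul_det_ne dA hD
  have d2 := mul_det_ne d1 dB
  have e1 := la_le hC h1 hD d1 i (sv_left_le dA hD i)
  have e2 := la_le hC h2 d1 hD i (by
    simpa only [← Matrix.mul_assoc, mul_eq_one_comm.1 hA, Matrix.one_mul] using sv_left_le dA' d1 i)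
  have e3 := la_le hC h3 d1 d2 i (sv_right_le dB d1 i)
  have e4 := la_le hC h4 d2 d1 i (by
    simpa only [Matrix.mul_assoc, hB, Matrix.mul_one] using sv_right_le dB' d2 i)
  rw [abs_le]
  constructor <;> linarith

theorem tgt_re (hn : 0 < n) (φ : G →* SpecialLinearGroup (Fin n) ℝ) (hφ : IsClosedEmbedding φ)
    (E : Submodule ℝ (Fin n → ℝ)) (hr : finrank ℝ E ≤ r) {C : ℝ} (hC : 1 ≤ C)
    (car : ∀ g, ∃ (A A' B B' : Matrix (Fin n) (Fin n) ℝ) (x : Fin n → ℝ), x ∈ E ∧ A * A' = 1 ∧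
      B * B' = 1 ∧ (∀ i j, |A i j| ≤ C) ∧ (∀ i j, |A' i j| ≤ C) ∧ (∀ i j, |B i j| ≤ C) ∧
      (∀ i j, |B' i j| ≤ C) ∧ (φ g).1 = A * diagonal (fun a => Real.exp (x a)) * B) : Tgt G r := by
  have hdet : ∀ g, (φ g).1.det ≠ 0 := fun g => by rw [(φ g).2]; exact one_ne_zero
  have hE : EmbW (fun g : G => (φ g).1) :=
    ⟨fun g h => Or.inl (by rw [map_mul]; rfl), fun g => by rw [(φ g).2]; norm_num⟩
  have hS := gsys_all hn hE
  have hd : DatB (fun (j : Fin (n - 1)) g => gap (j : ℕ) (φ g).1) (fun g => fun i : Fin n =>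
      la (φ g).1 i) dl (fam E) r := by
    refine ⟨fun j g => ?_, fun j g => H944.gap_nonneg (hdet g) _, fun a b => ?_, bot_fam E,
      cut_fam E, |2 * Real.log (n * (n * C))|, fun g => ?_⟩
    · have hj : (j : ℕ) + 1 < n := by omega
      rw [gap, if_pos hj]
      rfl
    · refine ⟨lc (φ a).1 + lc (φ b).1, fun g => ?_⟩
      rw [pi_norm_le_iff_of_nonneg (add_nonneg (lc_nonneg _) (lc_nonneg _))]
      intro i
      rw [Pi.sub_apply, Real.norm_eq_abs, map_mul, map_mul, Matrix.SpecialLinearGroup.coe_mul,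
        Matrix.SpecialLinearGroup.coe_mul]
      have h1 := abs_le.1 (abs_la_left (hdet a) (hdet g) (i : ℕ))
      have h2 := abs_le.1 (abs_la_right (hdet b) (mul_det_ne (hdet a) (hdet g)) (i : ℕ))
      rw [abs_le]
      constructor <;> linarith
    · obtain ⟨A, A', B, B', x, hx, hA, hB, h1, h2, h3, h4, he⟩ := car g
      have hD : (diagonal fun a => Real.exp (x a)).det ≠ 0 := by
        rw [det_diagonal]
        exact prod_ne_zero_iff.2 fun i _ => (Real.exp_pos _).ne'
      obtain ⟨σ, hσ⟩ := exists_perm_la (κ := 1) (κ' := 1) (x := x) hD (by simp) (by simp) (by simp)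
      have h5 := mem_fam E σ ∅
      rw [Finset.inf_empty, inf_top_eq] at h5
      refine ⟨_, h5, (finrank_per E σ).trans hr, fun i => x (σ i), mem_per E hx fun i => rfl, ?_⟩
      rw [pi_norm_le_iff_of_nonneg (abs_nonneg _)]
      intro i
      rw [Pi.sub_apply, Real.norm_eq_abs, he, ← hσ]
      exact (la_bd hC hA hB h1 h2 h3 h4 hD i).trans (le_abs_self _)
  have h3 : IsClosedEmbedding (fun g : SpecialLinearGroup (Fin n) ℝ =>
      (g : Matrix (Fin n) (Fin n) ℝ)) := SpecialLinearGroup.isClosedEmbedding_val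
  refine ⟨Fin r, inferInstance, _, _, fun j => j, ⟨gsysB hd hS, fun R => ⟨R, fun i j hij g hg => ?_⟩,
    fun R => ⟨_, (h3.comp hφ).isCompact_preimage (isCompact_hs_le R), fun g hg => hg⟩⟩⟩
  have hij' : i = j := hij
  rw [← hij']
  exact hg

/-- the realification of complex matrices -/
noncomputable def re2 (n : ℕ) : Matrix (Fin n) (Fin n) ℂ →ₐ[ℝ] Matrix (Fin (n * 2)) (Fin (n * 2)) ℝ :=
  ((compAlgEquiv (Fin n) (Fin 2) ℝ ℝ).trans (reindexAlgEquiv ℝ ℝ finProdFinEquiv)).toAlgHom.comp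
    (Algebra.leftMulMatrix Complex.basisOneI).mapMatrix

theorem re2_apply (M : Matrix (Fin n) (Fin n) ℂ) (a b : Fin (n * 2)) : re2 n M a b =
    Algebra.leftMulMatrix Complex.basisOneI (M a.divNat b.divNat) a.modNat b.modNat := rfl

theorem re2_le (M : Matrix (Fin n) (Fin n) ℂ) (a b : Fin (n * 2)) :
    |re2 n M a b| ≤ ‖M a.divNat b.divNat‖ := by
  rw [re2_apply, Algebra.leftMulMatrix_complex]
  generalize a.modNat = s
  generalize b.modNat = t
  fin_cases s <;> fin_cases t <;> simp [Complex.abs_re_le_norm, Complex.abs_im_le_norm]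

theorem re2_diag (x : Fin n → ℝ) :
    re2 n (diagonal fun i => (x i : ℂ)) = diagonal fun a => x a.divNat := by
  ext a b
  obtain ⟨⟨i, s⟩, rfl⟩ := finProdFinEquiv.surjective a
  obtain ⟨⟨j, t⟩, rfl⟩ := finProdFinEquiv.surjective b
  have e : ∀ z : Fin n × Fin 2, (finProdFinEquiv z).divNat = z.1 ∧ (finProdFinEquiv z).modNat = z.2 :=
    fun z => Prod.ext_iff.1 (finProdFinEquiv.symm_apply_apply z)
  simp only [re2_apply, e, diagonal_apply, EmbeddingLike.apply_eq_iff_eq, Prod.mk.injEq,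
    Algebra.leftMulMatrix_complex]
  by_cases h : i = j <;> fin_cases s <;> fin_cases t <;> simp [h]

theorem re2_det {M : Matrix (Fin n) (Fin n) ℂ} (h : M.det = 1) : (re2 n M).det = 1 := by
  have := Matrix.det_det M (Algebra.leftMulMatrix Complex.basisOneI).toRingHom
  rw [h, map_one, det_one] at this
  exact (det_reindex_self _ _).trans this.symm

theorem re2_emb : IsClosedEmbedding (re2 n) :=
  LinearMap.isClosedEmbedding_of_injective (f := (re2 n).toLinearMap) (LinearMap.ker_eq_bot.2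
    (((compAlgEquiv (Fin n) (Fin 2) ℝ ℝ).trans (reindexAlgEquiv ℝ ℝ finProdFinEquiv)).injective.comp
      (Matrix.map_injective (Algebra.leftMulMatrix_injective Complex.basisOneI))))

theorem arch {k : Type} [NontriviallyNormedField k] (h : UN.LocK k) (hu : ¬ IsUltrametricDist k) :
    ∃ ψ : k →+* ℂ, ∀ x, ‖ψ x‖ = ‖x‖ := by
  rcases h with ⟨φ, h⟩ | ⟨φ, h⟩ | h
  · exact ⟨Complex.ofRealHom.comp φ, fun x => (Complex.norm_real _).trans (h x)⟩
  · exact ⟨φ, h⟩
  · exact absurd h hu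

/-- **A coarse Cartan decomposition gives a target group.** -/
theorem tgt_kak {k G : Type} [NontriviallyNormedField k] [ProperSpace k] [Group G]
    [TopologicalSpace G] (hk : P092.UN.LocK k) {n r : ℕ} (hn : 0 < n)
    (m : G →* Matrix (Fin n) (Fin n) k) (hm : Topology.IsClosedEmbedding m)
    (hdet : ∀ g, (m g).det = 1) (E : Submodule ℝ (Fin n → ℝ)) (hr : finrank ℝ E ≤ r) (C : ℝ)
    (car : ∀ g, ∃ (A A' B B' : Matrix (Fin n) (Fin n) k) (a : Fin n → k) (x : Fin n → ℝ),
      x ∈ E ∧ A * A' = 1 ∧ B * B' = 1 ∧ (∀ i j, ‖A i j‖ ≤ C) ∧ (∀ i j, ‖A' i j‖ ≤ C) ∧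
      (∀ i j, ‖B i j‖ ≤ C) ∧ (∀ i j, ‖B' i j‖ ≤ C) ∧ m g = A * diagonal a * B ∧
      ∀ i, |Real.log ‖a i‖ - x i| ≤ C) : Tgt G r := by
  by_cases hu : IsUltrametricDist k
  · exact tgt_ultra hn m hm (fun g => by rw [hdet, norm_one]) E hr C car
  obtain ⟨ψ, hψ⟩ := arch hk hu
  let T := (re2 n).toRingHom.comp ψ.mapMatrix
  have hT : IsClosedEmbedding T :=
    re2_emb.comp (AddMonoidHomClass.isometry_of_norm ψ hψ).isClosedEmbedding.matrix_map
  let f := T.toMonoidHom.comp m
  have hf : ∀ g, (f g).det = 1 := fun g => re2_det (by rw [← RingHom.map_det, hdet, map_one])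
  refine tgt_re (by omega) ⟨⟨fun g => ⟨f g, hf g⟩, Subtype.ext (map_one f)⟩,
    fun a b => Subtype.ext (map_mul f a b)⟩ (IsClosedEmbedding.of_comp
      SpecialLinearGroup.isClosedEmbedding_val.isEmbedding (hT.comp hm))
    (E.map (LinearMap.funLeft ℝ ℝ Fin.divNat)) ((Submodule.finrank_map_le _ _).trans hr)
    (C := (|C| + 1) * Real.exp |C|)
    (one_le_mul_of_one_le_of_one_le (by linarith [abs_nonneg C]) (Real.one_le_exp (abs_nonneg C)))
    fun g => ?_
  obtain ⟨A, A', B, B', a, x, hx, hA, hB, h1, h2, h3, h4, he, hxa⟩ := car g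
  have ha : ∀ i, ψ (a i) ≠ 0 := fun i => (map_ne_zero ψ).2 fun hi => by
    have := hdet g
    rw [he, det_mul, det_mul, det_diagonal, prod_eq_zero (mem_univ i) hi, mul_zero, zero_mul] at this
    exact zero_ne_one this
  let u : Fin n → ℂ := fun i => ψ (a i) / (Real.exp (x i) : ℝ)
  have u0 : ∀ i, u i ≠ 0 := fun i => div_ne_zero (ha i) (by exact_mod_cast (Real.exp_pos _).ne')
  have u1 : ∀ i, ‖u i‖ = Real.exp (Real.log ‖a i‖ - x i) := fun i => by
    rw [Real.exp_sub, Real.exp_log (hψ (a i) ▸ norm_pos_iff.2 (ha i)), norm_div, hψ,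
      Complex.norm_real, Real.norm_of_nonneg (Real.exp_pos _).le]
  have c0 : C ≤ |C| + 1 := by linarith [le_abs_self C]
  have c1 : C ≤ (|C| + 1) * Real.exp |C| := c0.trans
    (le_mul_of_one_le_right (by positivity) (Real.one_le_exp (abs_nonneg C)))
  refine ⟨re2 n (ψ.mapMatrix A * diagonal u), re2 n ((diagonal fun i => (u i)⁻¹) * ψ.mapMatrix A'),
    T B, T B', _, ⟨x, hx, rfl⟩, ?_, by rw [← map_mul, hB, map_one], fun i j => (re2_le _ i j).trans ?_,
    fun i j => (re2_le _ i j).trans ?_, fun i j => (re2_le _ i j).trans ((hψ _).le.trans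
      ((h3 _ _).trans c1)), fun i j => (re2_le _ i j).trans ((hψ _).le.trans ((h4 _ _).trans c1)), ?_⟩
  · rw [← map_mul, Matrix.mul_assoc, ← Matrix.mul_assoc (diagonal u), diagonal_mul_diagonal]
    simp only [mul_inv_cancel₀ (u0 _), diagonal_one, Matrix.one_mul]
    rw [← map_mul, hA, map_one, map_one]
  · rw [mul_diagonal, norm_mul, u1]
    exact mul_le_mul ((hψ _).le.trans ((h1 _ _).trans c0)) (Real.exp_le_exp.2
      ((le_abs_self _).trans ((hxa _).trans (le_abs_self C)))) (by positivity) (by positivity)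
  · rw [diagonal_mul, norm_mul, norm_inv, u1, ← Real.exp_neg, mul_comm]
    exact mul_le_mul ((hψ _).le.trans ((h2 _ _).trans c0)) (Real.exp_le_exp.2
      ((neg_le_abs _).trans ((hxa _).trans (le_abs_self C)))) (by positivity) (by positivity)
  · show T (m g) = _ * (diagonal fun a : Fin (n * 2) => Real.exp (x a.divNat)) * _
    rw [← re2_diag fun i => Real.exp (x i), ← map_mul, he, map_mul, Matrix.mul_assoc _ (diagonal u),
      diagonal_mul_diagonal]
    congr 1
    show re2 n (ψ.mapMatrix _) = _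
    rw [map_mul, RingHom.mapMatrix_apply ψ (diagonal a), diagonal_map (map_zero ψ)]
    congr 3
    exact funext fun i => (div_mul_cancel₀ _ (by exact_mod_cast (Real.exp_pos _).ne')).symm

end Vale.Agent.P092TG
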